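/-
Row 152, module B (bridge).  Blueprint: `git show origin/helper22:docs/R152_B.md`  (sec. 2).
Architect: helper283.   THIS FILE: definitions only (frozen; ask helper283 before changing anything).

A cut system: tiles `TT`, points `X`, supports, and a ternary relation `Sp a b c`
("b, c are the 0-half and the 1-half of a for some cut").
-/
import Mathlib

set_option autoImplicit false
open scoped Classical

namespace Claimed.Agent.R152.B

universe u v w

/-- Abstract cut system (blueprint sec. 2, axioms A0-A4). -/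
structure CutSys (TT : Type u) (X : Type v) where
  supp : TT → Set X
  Sp : TT → TT → TT → Prop
  supp_nonempty : ∀ a, (supp a).Nonempty
  sp_union : ∀ {a b c}, Sp a b c → supp b ∪ supp c = supp a
  sp_disj : ∀ {a b c}, Sp a b c → Disjoint (supp b) (supp c)
  cross : ∀ {a b0 b1 c0 c1}, Sp a b0 b1 → Sp a c0 c1 → ¬ (b0 = c0 ∧ b1 = c1) →
    ∃ q00 q01 q10 q11, Sp b0 q00 q01 ∧ Sp b1 q10 q11 ∧ Sp c0 q00 q10 ∧ Sp c1 q01 q11
  merge : ∀ {b c}, Disjoint (supp b) (supp c) → ∃ a, Sp a b c
  sp_unique : ∀ {a b c b' c'}, Sp a b c → Sp a b' c' → supp b = supp b' → b = b' ∧ c = c'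

variable {TT : Type u} {X : Type v}

/-- `v[a -> b,c]` : replace the tile `a` by `b` and `c`. -/
noncomputable def rep (v : Finset TT) (a b c : TT) : Finset TT := insert b (insert c (v.erase a))

/-- `w[b,c -> a]` : replace the tiles `b`, `c` by `a`. -/
noncomputable def mrg (w : Finset TT) (a b c : TT) : Finset TT := insert a ((w.erase b).erase c)

theorem mem_rep {v : Finset TT} {a b c t : TT} :
    t ∈ rep v a b c ↔ t = b ∨ t = c ∨ (t ≠ a ∧ t ∈ v) := by
  simp [rep]

theorem mem_mrg {w : Finset TT} {a b c t : TT} :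
    t ∈ mrg w a b c ↔ t = a ∨ (t ≠ c ∧ t ≠ b ∧ t ∈ w) := by
  simp [mrg]

namespace CutSys

variable (C : CutSys TT X)

/-- `t` is below `a`. -/
def Below (t a : TT) : Prop := C.supp t ⊆ C.supp a

/-- `p|a` : the members of `p` below `a`. -/
noncomputable def restr (p : Finset TT) (a : TT) : Finset TT := p.filter (fun t => C.Below t a)

theorem mem_restr {p : Finset TT} {a t : TT} : t ∈ C.restr p a ↔ t ∈ p ∧ C.Below t a := by
  simp [restr]

/-- Pairwise disjoint supports. -/
def PD (p : Finset TT) : Prop := ∀ s ∈ p, ∀ t ∈ p, s ≠ t → Disjoint (C.supp s) (C.supp t)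

/-- A partition: finite set of tiles with pairwise disjoint supports covering `X`. -/
structure IsPart (v : Finset TT) : Prop where
  disj : C.PD v
  cover : ∀ x : X, ∃ a ∈ v, x ∈ C.supp a

/-- `w` is an elementary expansion of `v`.  (The clauses `b ∉ v`, `c ∉ v` are automatic when `v` is a
partition; they are part of the definition so that `Exp v w` and `IsPart w` imply `IsPart v`.) -/
def Exp (v w : Finset TT) : Prop :=
  ∃ a ∈ v, ∃ b c, C.Sp a b c ∧ b ∉ v ∧ c ∉ v ∧ w = rep v a b c

/-- Adjacency in the expansion graph. -/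
def Adj (v w : Finset TT) : Prop := C.Exp v w ∨ C.Exp w v

/-- The connected component of the base vertex `o` (blueprint: `v1`). -/
def K (o : Finset TT) : Set (Finset TT) := {v | Relation.ReflTransGen C.Adj o v}

/-- Connected inside the part of the graph with at most `M` tiles. -/
def ConnLe (M : ℕ) (u w : Finset TT) : Prop :=
  Relation.ReflTransGen (fun x y => C.Adj x y ∧ x.card ≤ M ∧ y.card ≤ M) u w

/-- Patterns: `Pat a p` means that `p` is obtained from `{a}` by iterated cuts. -/
inductive Pat : TT → Finset TT → Prop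
  | single (a : TT) : Pat a {a}
  | split {a b c : TT} {p q : Finset TT} : C.Sp a b c → Pat b p → Pat c q → Pat a (p ∪ q)

/-- `r` refines `p`. -/
def Ref (p r : Finset TT) : Prop :=
  (∀ t ∈ p, C.Pat t (C.restr r t)) ∧ ∀ x ∈ r, ∃ t ∈ p, C.Below x t

/-- The order on partitions. -/
def Le (v w : Finset TT) : Prop :=
  ∃ P : TT → Finset TT, (∀ a ∈ v, C.Pat a (P a)) ∧ w = v.biUnion P

/-- Square cell: bottom `v`, middle vertices `u`, `u'`, top `w`. -/
def SqCell (v u u' w : Finset TT) : Prop :=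
  ∃ a ∈ v, ∃ a' ∈ v, a ≠ a' ∧ ∃ b c b' c', C.Sp a b c ∧ C.Sp a' b' c' ∧
    u = rep v a b c ∧ u' = rep v a' b' c' ∧ w = rep u a' b' c'

/-- Hexagon cell: bottom `v`, left path `u1, u2`, right path `u1', u2'`, top `w`. -/
def HxCell (v u1 u2 u1' u2' w : Finset TT) : Prop :=
  ∃ a ∈ v, ∃ b0 b1 c0 c1 q00 q01 q10 q11,
    C.Sp a b0 b1 ∧ C.Sp a c0 c1 ∧ C.Sp b0 q00 q01 ∧ C.Sp b1 q10 q11 ∧
    C.Sp c0 q00 q10 ∧ C.Sp c1 q01 q11 ∧
    u1 = rep v a b0 b1 ∧ u2 = rep u1 b0 q00 q01 ∧ w = rep u2 b1 q10 q11 ∧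
    u1' = rep v a c0 c1 ∧ u2' = rep u1' c0 q00 q10

variable {G : Type w} [Group G]

/-- Flatness of a `G`-valued cocycle on all cells of `K o` whose top has at most `M` tiles. -/
structure Flat (o : Finset TT) (φ : Finset TT → Finset TT → G) (M : ℕ) : Prop where
  sq : ∀ v ∈ C.K o, ∀ u u' w, C.SqCell v u u' w → w.card ≤ M →
    φ v u * φ u w = φ v u' * φ u' w
  hx : ∀ v ∈ C.K o, ∀ u1 u2 u1' u2' w, C.HxCell v u1 u2 u1' u2' w → w.card ≤ M →
    φ v u1 * φ u1 u2 * φ u2 w = φ v u1' * φ u1' u2' * φ u2' w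

/-- `Asc φ v w g`: there is an ascending path from `v` to `w` with holonomy `g`. -/
inductive Asc (φ : Finset TT → Finset TT → G) : Finset TT → Finset TT → G → Prop
  | refl (v : Finset TT) : Asc φ v v 1
  | step {v v' w : Finset TT} {g : G} : C.Exp v v' → Asc φ v' w g → Asc φ v w (φ v v' * g)

/-- `f` is a potential of `φ` on the edges of `K o` whose top has at most `M` tiles. -/
def IsPot (o : Finset TT) (φ : Finset TT → Finset TT → G) (M : ℕ) (f : Finset TT → G) : Prop :=
  f o = 1 ∧ ∀ v ∈ C.K o, ∀ w, C.Exp v w → w.card ≤ M → f w = f v * φ v w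

end CutSys

end Claimed.Agent.R152.B
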