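/-
Row 152, module B.  Blueprint `origin/helper22:docs/R152_B.md` sec. 2, items 2.1, 2.2 and trivia on `K`.
All proofs are elementary `Finset`/`Set` manipulations.
-/
import Claimed.Agent.R152.B.Cut.Defs

set_option autoImplicit false
open scoped Classical

namespace Claimed.Agent.R152.B

universe u v w
variable {TT : Type u} {X : Type v}

/-- Two replacements at different tiles commute. -/
theorem rep_comm {v : Finset TT} {a b c a' b' c' : TT} (h : a ≠ a')
    (h1 : a' ≠ b) (h2 : a' ≠ c) (h3 : a ≠ b') (h4 : a ≠ c') :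
    rep (rep v a b c) a' b' c' = rep (rep v a' b' c') a b c := by
  ext t
  simp only [mem_rep]
  have k1 : t = b → t ≠ a' := fun e e' => h1 (e'.symm.trans e)
  have k2 : t = c → t ≠ a' := fun e e' => h2 (e'.symm.trans e)
  have k3 : t = b' → t ≠ a := fun e e' => h3 (e'.symm.trans e)
  have k4 : t = c' → t ≠ a := fun e e' => h4 (e'.symm.trans e)
  tauto

/-- `mrg` undoes `rep` (no partition hypothesis). -/
theorem mrg_rep_of {v : Finset TT} {a b c : TT} (ha : a ∈ v) (hb : b ∉ v) (hc : c ∉ v) :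
    mrg (rep v a b c) a b c = v := by
  ext t
  simp only [mem_mrg, mem_rep]
  constructor
  · rintro (e | ⟨h1, h2, e | e | ⟨_, h3⟩⟩)
    · exact e ▸ ha
    · exact absurd e h2
    · exact absurd e h1
    · exact h3
  · intro ht
    by_cases e : t = a
    · exact Or.inl e
    · refine Or.inr ⟨fun e' => hc (e' ▸ ht), fun e' => hb (e' ▸ ht), Or.inr (Or.inr ⟨e, ht⟩)⟩

/-- `rep` undoes `mrg` (no partition hypothesis). -/
theorem rep_mrg_of {w : Finset TT} {a b c : TT} (hb : b ∈ w) (hc : c ∈ w) (ha : a ∉ w) :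
    rep (mrg w a b c) a b c = w := by
  ext t
  simp only [mem_mrg, mem_rep]
  constructor
  · rintro (e | e | ⟨h1, e | ⟨_, _, h3⟩⟩)
    · exact e ▸ hb
    · exact e ▸ hc
    · exact absurd e h1
    · exact h3
  · intro ht
    by_cases e : t = b
    · exact Or.inl e
    · by_cases e' : t = c
      · exact Or.inr (Or.inl e')
      · exact Or.inr (Or.inr ⟨fun e'' => ha (e'' ▸ ht), Or.inr ⟨e', e, ht⟩⟩)

namespace CutSys

variable (C : CutSys TT X)
variable {C}
variable {a b c t : TT} {v w o : Finset TT}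

theorem sp_below_left (h : C.Sp a b c) : C.Below b a := by
  intro x hx
  rw [← C.sp_union h]
  exact Or.inl hx

theorem sp_below_right (h : C.Sp a b c) : C.Below c a := by
  intro x hx
  rw [← C.sp_union h]
  exact Or.inr hx

theorem sp_ne (h : C.Sp a b c) : b ≠ c := by
  intro e
  obtain ⟨x, hx⟩ := C.supp_nonempty b
  exact Set.disjoint_left.mp (C.sp_disj h) hx (e ▸ hx)

theorem sp_not_below_left (h : C.Sp a b c) : ¬ C.Below a b := by
  intro hab
  obtain ⟨x, hx⟩ := C.supp_nonempty c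
  exact Set.disjoint_left.mp (C.sp_disj h) (hab (sp_below_right h hx)) hx

theorem sp_not_below_right (h : C.Sp a b c) : ¬ C.Below a c := by
  intro hac
  obtain ⟨x, hx⟩ := C.supp_nonempty b
  exact Set.disjoint_left.mp (C.sp_disj h) hx (hac (sp_below_left h hx))

theorem sp_ne_left (h : C.Sp a b c) : b ≠ a := by
  intro e
  apply sp_not_below_left h
  rw [e]
  exact Set.Subset.refl _

theorem sp_ne_right (h : C.Sp a b c) : c ≠ a := by
  intro e
  apply sp_not_below_right h
  rw [e]
  exact Set.Subset.refl _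

theorem Below.refl (a : TT) : C.Below a a := by
  exact Set.Subset.refl _

theorem Below.trans {r s t : TT} (h : C.Below r s) (h' : C.Below s t) : C.Below r t := by
  exact Set.Subset.trans h h'

/-- A tile cannot be below two tiles with disjoint supports. -/
theorem Below.not_disjoint {r s t : TT} (h : C.Below t r) (h' : C.Below t s) :
    ¬ Disjoint (C.supp r) (C.supp s) := by
  intro hd
  obtain ⟨x, hx⟩ := C.supp_nonempty t
  exact Set.disjoint_left.mp hd (h hx) (h' hx)

theorem IsPart.eq_of_not_disjoint (hv : C.IsPart v) (ha : a ∈ v) (hb : b ∈ v)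
    (h : ¬ Disjoint (C.supp a) (C.supp b)) : a = b := by
  by_contra hne
  exact h (hv.disj a ha b hb hne)

theorem IsPart.eq_of_below (hv : C.IsPart v) (ha : a ∈ v) (hb : b ∈ v) (h : C.Below a b) :
    a = b := by
  exact hv.eq_of_not_disjoint ha hb (Below.not_disjoint (Below.refl a) h)

theorem IsPart.eq_of_below_below (hv : C.IsPart v) (ha : a ∈ v) (hb : b ∈ v)
    (h : C.Below t a) (h' : C.Below t b) : a = b := by
  exact hv.eq_of_not_disjoint ha hb (Below.not_disjoint h h')

theorem IsPart.nonempty [Nonempty X] (hv : C.IsPart v) : v.Nonempty := by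
  obtain ⟨x⟩ := ‹Nonempty X›
  obtain ⟨a, ha, _⟩ := hv.cover x
  exact ⟨a, ha⟩

/-! ### 2.1 -/

theorem IsPart.sp_not_mem_left (hv : C.IsPart v) (ha : a ∈ v) (h : C.Sp a b c) : b ∉ v := by
  intro hb
  exact sp_ne_left h (hv.eq_of_below hb ha (sp_below_left h))

theorem IsPart.sp_not_mem_right (hv : C.IsPart v) (ha : a ∈ v) (h : C.Sp a b c) : c ∉ v := by
  intro hc
  exact sp_ne_right h (hv.eq_of_below hc ha (sp_below_right h))

theorem IsPart.isPart_rep (hv : C.IsPart v) (ha : a ∈ v) (h : C.Sp a b c) : C.IsPart (rep v a b c) := by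
  have hbt : ∀ t ∈ v, t ≠ a → Disjoint (C.supp b) (C.supp t) := fun t ht hta =>
    Set.disjoint_of_subset_left (sp_below_left h) (hv.disj a ha t ht (Ne.symm hta))
  have hct : ∀ t ∈ v, t ≠ a → Disjoint (C.supp c) (C.supp t) := fun t ht hta =>
    Set.disjoint_of_subset_left (sp_below_right h) (hv.disj a ha t ht (Ne.symm hta))
  constructor
  · intro s hs t ht hst
    rw [mem_rep] at hs ht
    rcases hs with hs | hs | ⟨hsa, hs⟩ <;> rcases ht with ht | ht | ⟨hta, ht⟩
    · exact absurd (hs.trans ht.symm) hst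
    · rw [hs, ht]; exact C.sp_disj h
    · rw [hs]; exact hbt t ht hta
    · rw [hs, ht]; exact (C.sp_disj h).symm
    · exact absurd (hs.trans ht.symm) hst
    · rw [hs]; exact hct t ht hta
    · rw [ht]; exact (hbt s hs hsa).symm
    · rw [ht]; exact (hct s hs hsa).symm
    · exact hv.disj s hs t ht hst
  · intro x
    obtain ⟨a', ha', hx⟩ := hv.cover x
    by_cases e : a' = a
    · rw [e, ← C.sp_union h] at hx
      rcases hx with hx | hx
      · exact ⟨b, mem_rep.mpr (Or.inl rfl), hx⟩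
      · exact ⟨c, mem_rep.mpr (Or.inr (Or.inl rfl)), hx⟩
    · exact ⟨a', mem_rep.mpr (Or.inr (Or.inr ⟨e, ha'⟩)), hx⟩

theorem IsPart.exp_rep (hv : C.IsPart v) (ha : a ∈ v) (h : C.Sp a b c) :
    C.Exp v (rep v a b c) := by
  exact ⟨a, ha, b, c, h, hv.sp_not_mem_left ha h, hv.sp_not_mem_right ha h, rfl⟩

theorem IsPart.mrg_rep (hv : C.IsPart v) (ha : a ∈ v) (h : C.Sp a b c) :
    mrg (rep v a b c) a b c = v := by
  exact mrg_rep_of ha (hv.sp_not_mem_left ha h) (hv.sp_not_mem_right ha h)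

/-! ### 2.2 -/

theorem IsPart.sp_not_mem_parent (hw : C.IsPart w) (hb : b ∈ w) (h : C.Sp a b c) : a ∉ w := by
  intro ha
  exact sp_ne_left h (hw.eq_of_below hb ha (sp_below_left h))

theorem IsPart.isPart_mrg (hw : C.IsPart w) (hb : b ∈ w) (hc : c ∈ w) (h : C.Sp a b c) :
    C.IsPart (mrg w a b c) := by
  have hat : ∀ t ∈ w, t ≠ c → t ≠ b → Disjoint (C.supp a) (C.supp t) := by
    intro t ht htc htb
    rw [← C.sp_union h, Set.disjoint_union_left]
    exact ⟨hw.disj b hb t ht (Ne.symm htb), hw.disj c hc t ht (Ne.symm htc)⟩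
  constructor
  · intro s hs t ht hst
    rw [mem_mrg] at hs ht
    rcases hs with hs | ⟨hsc, hsb, hs⟩ <;> rcases ht with ht | ⟨htc, htb, ht⟩
    · exact absurd (hs.trans ht.symm) hst
    · rw [hs]; exact hat t ht htc htb
    · rw [ht]; exact (hat s hs hsc hsb).symm
    · exact hw.disj s hs t ht hst
  · intro x
    obtain ⟨a', ha', hx⟩ := hw.cover x
    by_cases e : a' = b
    · exact ⟨a, mem_mrg.mpr (Or.inl rfl), sp_below_left h (e ▸ hx)⟩
    · by_cases e' : a' = c
      · exact ⟨a, mem_mrg.mpr (Or.inl rfl), sp_below_right h (e' ▸ hx)⟩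
      · exact ⟨a', mem_mrg.mpr (Or.inr ⟨e', e, ha'⟩), hx⟩

theorem IsPart.rep_mrg (hw : C.IsPart w) (hb : b ∈ w) (hc : c ∈ w) (h : C.Sp a b c) :
    rep (mrg w a b c) a b c = w := by
  exact rep_mrg_of hb hc (hw.sp_not_mem_parent hb h)

theorem IsPart.exp_mrg (hw : C.IsPart w) (hb : b ∈ w) (hc : c ∈ w) (h : C.Sp a b c) :
    C.Exp (mrg w a b c) w := by
  refine ⟨a, mem_mrg.mpr (Or.inl rfl), b, c, h, ?_, ?_, (hw.rep_mrg hb hc h).symm⟩
  · rw [mem_mrg]
    rintro (e | ⟨_, e, _⟩)
    · exact sp_ne_left h e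
    · exact e rfl
  · rw [mem_mrg]
    rintro (e | ⟨e, _, _⟩)
    · exact sp_ne_right h e
    · exact e rfl

/-! ### expansions and the component `K o` -/

theorem Exp.card (h : C.Exp v w) : w.card = v.card + 1 := by
  obtain ⟨a, ha, b, c, hsp, hb, hc, rfl⟩ := h
  have h1 : c ∉ v.erase a := fun hm => hc (Finset.mem_of_mem_erase hm)
  have h2 : b ∉ insert c (v.erase a) := by
    rw [Finset.mem_insert]
    rintro (e | hm)
    · exact sp_ne hsp e
    · exact hb (Finset.mem_of_mem_erase hm)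
  have h3 : 0 < v.card := Finset.card_pos.mpr ⟨a, ha⟩
  rw [rep, Finset.card_insert_of_notMem h2, Finset.card_insert_of_notMem h1,
    Finset.card_erase_of_mem ha]
  omega

theorem Exp.isPart (h : C.Exp v w) (hv : C.IsPart v) : C.IsPart w := by
  obtain ⟨a, ha, b, c, hsp, _, _, rfl⟩ := h
  exact hv.isPart_rep ha hsp

theorem Exp.isPart_left (h : C.Exp v w) (hw : C.IsPart w) : C.IsPart v := by
  obtain ⟨a, ha, b, c, hsp, hb, hc, rfl⟩ := h
  have := hw.isPart_mrg (mem_rep.mpr (Or.inl rfl)) (mem_rep.mpr (Or.inr (Or.inl rfl))) hsp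
  rwa [mrg_rep_of ha hb hc] at this

/-- Every expansion is the inverse of a merge. -/
theorem Exp.exists_mrg (h : C.Exp v w) :
    ∃ a b c, b ∈ w ∧ c ∈ w ∧ C.Sp a b c ∧ v = mrg w a b c := by
  obtain ⟨a, ha, b, c, hsp, hb, hc, rfl⟩ := h
  exact ⟨a, b, c, mem_rep.mpr (Or.inl rfl), mem_rep.mpr (Or.inr (Or.inl rfl)), hsp,
    (mrg_rep_of ha hb hc).symm⟩

theorem K_base (o : Finset TT) : o ∈ C.K o := by
  exact Relation.ReflTransGen.refl

theorem K_exp (hv : v ∈ C.K o) (h : C.Exp v w) : w ∈ C.K o := by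
  exact Relation.ReflTransGen.tail hv (Or.inl h)

theorem K_exp_left (hw : w ∈ C.K o) (h : C.Exp v w) : v ∈ C.K o := by
  exact Relation.ReflTransGen.tail hw (Or.inr h)

theorem K_isPart (ho : C.IsPart o) (hv : v ∈ C.K o) : C.IsPart v := by
  have hv' : Relation.ReflTransGen C.Adj o v := hv
  induction hv' with
  | refl => exact ho
  | tail hob hadj ih =>
    rcases hadj with h | h
    · exact h.isPart (ih hob)
    · exact h.isPart_left (ih hob)

/-- Induction principle for `K o`. -/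
theorem K_induction {p : Finset TT → Prop} (h0 : p o)
    (hup : ∀ v ∈ C.K o, ∀ w, C.Exp v w → p v → p w)
    (hdown : ∀ w ∈ C.K o, ∀ v, C.Exp v w → p w → p v) (hv : v ∈ C.K o) : p v := by
  have hv' : Relation.ReflTransGen C.Adj o v := hv
  induction hv' with
  | refl => exact h0
  | tail hob hadj ih =>
    rcases hadj with h | h
    · exact hup _ hob _ h (ih hob)
    · exact hdown _ hob _ h (ih hob)

end CutSys

end Claimed.Agent.R152.B
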