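/-
Row 152, module B.  Blueprint `origin/helper22:docs/R152_B.md` sec. 2: bookkeeping for crosses, squares, hexagons.
All proofs: `Finset.ext` + `mem_rep` + distinctness facts coming from supports (`Cut/Part.lean`).
-/
import Claimed.Agent.R152.B.Cut.Part

set_option autoImplicit false
open scoped Classical

namespace Claimed.Agent.R152.B

universe u v w
variable {TT : Type u} {X : Type v}

namespace CutSys

variable {C : CutSys TT X}
variable {a b0 b1 c0 c1 q00 q01 q10 q11 : TT} {v u u' w u1 u2 u1' u2' o : Finset TT}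

/-- Consequence of A1 for a cross: `supp q_ki = supp b_k ∩ supp c_i`. -/
theorem cross_supp (hb : C.Sp a b0 b1) (hc : C.Sp a c0 c1) (h0 : C.Sp b0 q00 q01)
    (h1 : C.Sp b1 q10 q11) (k0 : C.Sp c0 q00 q10) (k1 : C.Sp c1 q01 q11) :
    C.supp q00 = C.supp b0 ∩ C.supp c0 ∧ C.supp q01 = C.supp b0 ∩ C.supp c1 ∧
    C.supp q10 = C.supp b1 ∩ C.supp c0 ∧ C.supp q11 = C.supp b1 ∩ C.supp c1 := by
  have U0 : ∀ x, (x ∈ C.supp q00 ∨ x ∈ C.supp q01) ↔ x ∈ C.supp b0 := fun x => by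
    rw [← C.sp_union h0]; rfl
  have U1 : ∀ x, (x ∈ C.supp q10 ∨ x ∈ C.supp q11) ↔ x ∈ C.supp b1 := fun x => by
    rw [← C.sp_union h1]; rfl
  have V0 : ∀ x, (x ∈ C.supp q00 ∨ x ∈ C.supp q10) ↔ x ∈ C.supp c0 := fun x => by
    rw [← C.sp_union k0]; rfl
  have V1 : ∀ x, (x ∈ C.supp q01 ∨ x ∈ C.supp q11) ↔ x ∈ C.supp c1 := fun x => by
    rw [← C.sp_union k1]; rfl
  have Dc : ∀ x, x ∈ C.supp c0 → x ∈ C.supp c1 → False := fun x hx hx' =>
    Set.disjoint_left.1 (C.sp_disj hc) hx hx'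
  refine ⟨?_, ?_, ?_, ?_⟩
  · ext x
    constructor
    · intro h
      exact ⟨(U0 x).1 (Or.inl h), (V0 x).1 (Or.inl h)⟩
    · rintro ⟨hxb, hxc⟩
      rcases (U0 x).2 hxb with h | h
      · exact h
      · exact (Dc x hxc ((V1 x).1 (Or.inl h))).elim
  · ext x
    constructor
    · intro h
      exact ⟨(U0 x).1 (Or.inr h), (V1 x).1 (Or.inl h)⟩
    · rintro ⟨hxb, hxc⟩
      rcases (U0 x).2 hxb with h | h
      · exact (Dc x ((V0 x).1 (Or.inl h)) hxc).elim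
      · exact h
  · ext x
    constructor
    · intro h
      exact ⟨(U1 x).1 (Or.inl h), (V0 x).1 (Or.inr h)⟩
    · rintro ⟨hxb, hxc⟩
      rcases (U1 x).2 hxb with h | h
      · exact h
      · exact (Dc x hxc ((V1 x).1 (Or.inr h))).elim
  · ext x
    constructor
    · intro h
      exact ⟨(U1 x).1 (Or.inr h), (V1 x).1 (Or.inr h)⟩
    · rintro ⟨hxb, hxc⟩
      rcases (U1 x).2 hxb with h | h
      · exact (Dc x ((V0 x).1 (Or.inr h)) hxc).elim
      · exact h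

/-- two tiles with disjoint supports are different. -/
theorem cell_ne_of_disjoint {s t : TT} (h : Disjoint (C.supp s) (C.supp t)) : s ≠ t := by
  rintro rfl
  obtain ⟨x, hx⟩ := C.supp_nonempty s
  exact Set.disjoint_left.1 h hx hx

/-- a tile below `s` is different from a tile whose support is disjoint from that of `s`. -/
theorem cell_ne_of_below {r s t : TT} (hr : C.Below r s) (h : Disjoint (C.supp s) (C.supp t)) :
    r ≠ t :=
  cell_ne_of_disjoint (Set.disjoint_of_subset_left hr h)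

/-- In a cross the two cuts are different. -/
theorem cross_ne (hv : C.IsPart v) (ha : a ∈ v) (hb : C.Sp a b0 b1) (hc : C.Sp a c0 c1) (h0 : C.Sp b0 q00 q01)
    (h1 : C.Sp b1 q10 q11) (k0 : C.Sp c0 q00 q10) (k1 : C.Sp c1 q01 q11) :
    rep v a b0 b1 ≠ rep v a c0 c1 := by
  intro h
  obtain ⟨e00, e01, -, -⟩ := cross_supp hb hc h0 h1 k0 k1
  have hmem : b0 ∈ rep v a c0 c1 := by
    rw [← h]
    exact mem_rep.2 (Or.inl rfl)
  have hdc : C.supp c0 ∩ C.supp c1 = ∅ := Set.disjoint_iff_inter_eq_empty.1 (C.sp_disj hc)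
  rcases mem_rep.1 hmem with rfl | rfl | ⟨-, hbv⟩
  · obtain ⟨x, hx⟩ := C.supp_nonempty q01
    rw [e01, hdc] at hx
    exact hx
  · obtain ⟨x, hx⟩ := C.supp_nonempty q00
    rw [e00, Set.inter_comm, hdc] at hx
    exact hx
  · exact hv.sp_not_mem_left ha hb hbv

/-- `Sp a b c` and `Sp a c b` cannot both hold (cross + A0). -/
theorem sp_asymm {a b c : TT} (h : C.Sp a b c) : ¬ C.Sp a c b := by
  intro h'
  obtain ⟨q00, q01, q10, q11, h0, h1, k0, k1⟩ := C.cross h h' (fun e => sp_ne h e.1)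
  obtain ⟨e00, -, -, -⟩ := cross_supp h h' h0 h1 k0 k1
  obtain ⟨x, hx⟩ := C.supp_nonempty q00
  rw [e00, Set.disjoint_iff_inter_eq_empty.1 (C.sp_disj h)] at hx
  exact hx

/-- If two cuts of the same tile of a partition give the same vertex they are equal. -/
theorem IsPart.rep_inj (hv : C.IsPart v) (ha : a ∈ v) (hb : C.Sp a b0 b1) (hc : C.Sp a c0 c1)
    (h : rep v a b0 b1 = rep v a c0 c1) : b0 = c0 ∧ b1 = c1 := by
  by_contra hne
  obtain ⟨q00, q01, q10, q11, h0, h1, k0, k1⟩ := C.cross hb hc hne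
  exact cross_ne hv ha hb hc h0 h1 k0 k1 h

/-- one way around a hexagon. -/
theorem cell_hx_half (hv : C.IsPart v) (ha : a ∈ v) (hb : C.Sp a b0 b1)
    (h0 : C.Sp b0 q00 q01) (t : TT) :
    t ∈ rep (rep (rep v a b0 b1) b0 q00 q01) b1 q10 q11 ↔
      t = q00 ∨ t = q01 ∨ t = q10 ∨ t = q11 ∨ (t ≠ a ∧ t ∈ v) := by
  have n1 : q00 ≠ b1 := cell_ne_of_below (sp_below_left h0) (C.sp_disj hb)
  have n2 : q01 ≠ b1 := cell_ne_of_below (sp_below_right h0) (C.sp_disj hb)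
  have m0 : b0 ∉ v := hv.sp_not_mem_left ha hb
  have m1 : b1 ∉ v := hv.sp_not_mem_right ha hb
  simp only [mem_rep]
  constructor
  · rintro (rfl | rfl | ⟨h1, rfl | rfl | ⟨h2, rfl | rfl | ⟨h3, h4⟩⟩⟩)
    · exact Or.inr (Or.inr (Or.inl rfl))
    · exact Or.inr (Or.inr (Or.inr (Or.inl rfl)))
    · exact Or.inl rfl
    · exact Or.inr (Or.inl rfl)
    · exact absurd rfl h2
    · exact absurd rfl h1
    · exact Or.inr (Or.inr (Or.inr (Or.inr ⟨h3, h4⟩)))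
  · rintro (rfl | rfl | rfl | rfl | ⟨h3, h4⟩)
    · exact Or.inr (Or.inr ⟨n1, Or.inl rfl⟩)
    · exact Or.inr (Or.inr ⟨n2, Or.inr (Or.inl rfl)⟩)
    · exact Or.inl rfl
    · exact Or.inr (Or.inl rfl)
    · refine Or.inr (Or.inr ⟨?_, Or.inr (Or.inr ⟨?_, Or.inr (Or.inr ⟨h3, h4⟩)⟩)⟩)
      · rintro rfl
        exact m1 h4
      · rintro rfl
        exact m0 h4

/-- The two ways around a hexagon end at the same vertex `(v.erase a) ∪ {q00,q01,q10,q11}`. -/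
theorem hx_top (hv : C.IsPart v) (ha : a ∈ v) (hb : C.Sp a b0 b1) (hc : C.Sp a c0 c1)
    (h0 : C.Sp b0 q00 q01) (h1 : C.Sp b1 q10 q11) (k0 : C.Sp c0 q00 q10) (k1 : C.Sp c1 q01 q11) :
    rep (rep (rep v a b0 b1) b0 q00 q01) b1 q10 q11 =
      rep (rep (rep v a c0 c1) c0 q00 q10) c1 q01 q11 := by
  ext t
  rw [cell_hx_half hv ha hb h0, cell_hx_half hv ha hc k0]
  tauto

theorem SqCell.symm (hv : C.IsPart v) (h : C.SqCell v u u' w) : C.SqCell v u' u w := by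
  obtain ⟨a, ha, a', ha', hne, b, c, b', c', hs, hs', rfl, rfl, rfl⟩ := h
  refine ⟨a', ha', a, ha, hne.symm, b', c', b, c, hs', hs, rfl, rfl, ?_⟩
  refine rep_comm hne ?_ ?_ ?_ ?_
  · rintro rfl
    exact hv.sp_not_mem_left ha hs ha'
  · rintro rfl
    exact hv.sp_not_mem_right ha hs ha'
  · rintro rfl
    exact hv.sp_not_mem_left ha' hs' ha
  · rintro rfl
    exact hv.sp_not_mem_right ha' hs' ha

/-- the left half of `SqCell.exp`. -/
theorem SqCell.exp_left (hv : C.IsPart v) (h : C.SqCell v u u' w) : C.Exp v u ∧ C.Exp u w := by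
  obtain ⟨a, ha, a', ha', hne, b, c, b', c', hs, hs', rfl, rfl, rfl⟩ := h
  refine ⟨hv.exp_rep ha hs, (hv.isPart_rep ha hs).exp_rep ?_ hs'⟩
  exact mem_rep.2 (Or.inr (Or.inr ⟨hne.symm, ha'⟩))

theorem SqCell.exp (hv : C.IsPart v) (h : C.SqCell v u u' w) :
    C.Exp v u ∧ C.Exp u w ∧ C.Exp v u' ∧ C.Exp u' w := by
  obtain ⟨h1, h2⟩ := h.exp_left hv
  obtain ⟨h3, h4⟩ := (h.symm hv).exp_left hv
  exact ⟨h1, h2, h3, h4⟩

theorem SqCell.card (hv : C.IsPart v) (h : C.SqCell v u u' w) : w.card = v.card + 2 := by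
  obtain ⟨h1, h2⟩ := h.exp_left hv
  rw [h2.card, h1.card]

theorem HxCell.symm (hv : C.IsPart v) (h : C.HxCell v u1 u2 u1' u2' w) :
    C.HxCell v u1' u2' u1 u2 w := by
  obtain ⟨a, ha, b0, b1, c0, c1, q00, q01, q10, q11, hb, hc, h0, h1, k0, k1, rfl, rfl, rfl, rfl,
    rfl⟩ := h
  exact ⟨a, ha, c0, c1, b0, b1, q00, q10, q01, q11, hc, hb, k0, k1, h0, h1, rfl, rfl,
    hx_top hv ha hb hc h0 h1 k0 k1, rfl, rfl⟩

/-- the left half of `HxCell.exp`. -/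
theorem HxCell.exp_left (hv : C.IsPart v) (h : C.HxCell v u1 u2 u1' u2' w) :
    C.Exp v u1 ∧ C.Exp u1 u2 ∧ C.Exp u2 w := by
  obtain ⟨a, ha, b0, b1, c0, c1, q00, q01, q10, q11, hb, hc, h0, h1, k0, k1, rfl, rfl, rfl, rfl,
    rfl⟩ := h
  have p1 : C.IsPart (rep v a b0 b1) := hv.isPart_rep ha hb
  have m0 : b0 ∈ rep v a b0 b1 := mem_rep.2 (Or.inl rfl)
  have m1 : b1 ∈ rep v a b0 b1 := mem_rep.2 (Or.inr (Or.inl rfl))
  have p2 : C.IsPart (rep (rep v a b0 b1) b0 q00 q01) := p1.isPart_rep m0 h0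
  have m2 : b1 ∈ rep (rep v a b0 b1) b0 q00 q01 :=
    mem_rep.2 (Or.inr (Or.inr ⟨(sp_ne hb).symm, m1⟩))
  exact ⟨hv.exp_rep ha hb, p1.exp_rep m0 h0, p2.exp_rep m2 h1⟩

theorem HxCell.exp (hv : C.IsPart v) (h : C.HxCell v u1 u2 u1' u2' w) :
    C.Exp v u1 ∧ C.Exp u1 u2 ∧ C.Exp u2 w ∧ C.Exp v u1' ∧ C.Exp u1' u2' ∧ C.Exp u2' w := by
  obtain ⟨h1, h2, h3⟩ := h.exp_left hv
  obtain ⟨h4, h5, h6⟩ := (h.symm hv).exp_left hv
  exact ⟨h1, h2, h3, h4, h5, h6⟩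

theorem HxCell.card (hv : C.IsPart v) (h : C.HxCell v u1 u2 u1' u2' w) :
    w.card = v.card + 3 := by
  obtain ⟨h1, h2, h3⟩ := h.exp_left hv
  rw [h3.card, h2.card, h1.card]

end CutSys

end Claimed.Agent.R152.B
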