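/-
Row 152, module B.  Blueprint `origin/helper22:docs/R152_B.md` sec. 2, items 2.3, 2.4.
Everything is by induction on `Pat a p`.
-/
import Claimed.Agent.R152.B.Cut.Part

set_option autoImplicit false
open scoped Classical

namespace Claimed.Agent.R152.B

universe u v w
variable {TT : Type u} {X : Type v}

namespace CutSys

variable {C : CutSys TT X}
variable {a b c s t : TT} {p q r p' r' : Finset TT}

/-! ### 2.3 -/

theorem Pat.mem_below (h : C.Pat a p) (ht : t ∈ p) : C.Below t a := by
  induction h with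
  | single a =>
    rw [Finset.mem_singleton] at ht
    subst ht
    exact Below.refl _
  | split hs _ _ ih1 ih2 =>
    rcases Finset.mem_union.1 ht with h | h
    · exact (ih1 h).trans (sp_below_left hs)
    · exact (ih2 h).trans (sp_below_right hs)

theorem Pat.pd (h : C.Pat a p) : C.PD p := by
  induction h with
  | single a =>
    intro s hs t ht hne
    rw [Finset.mem_singleton] at hs ht
    exact absurd (hs.trans ht.symm) hne
  | split hs hp hq ih1 ih2 =>
    intro s hs' t ht' hne
    rcases Finset.mem_union.1 hs' with h1 | h1 <;> rcases Finset.mem_union.1 ht' with h2 | h2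
    · exact ih1 s h1 t h2 hne
    · exact (C.sp_disj hs).mono (hp.mem_below h1) (hq.mem_below h2)
    · exact (C.sp_disj hs).symm.mono (hq.mem_below h1) (hp.mem_below h2)
    · exact ih2 s h1 t h2 hne

theorem Pat.cover (h : C.Pat a p) {x : X} (hx : x ∈ C.supp a) : ∃ t ∈ p, x ∈ C.supp t := by
  induction h with
  | single a => exact ⟨a, Finset.mem_singleton_self a, hx⟩
  | split hs hp hq ih1 ih2 =>
    rw [← C.sp_union hs] at hx
    rcases hx with hx | hx
    · obtain ⟨t, ht, h⟩ := ih1 hx
      exact ⟨t, Finset.mem_union_left _ ht, h⟩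
    · obtain ⟨t, ht, h⟩ := ih2 hx
      exact ⟨t, Finset.mem_union_right _ ht, h⟩

theorem Pat.nonempty (h : C.Pat a p) : p.Nonempty := by
  obtain ⟨x, hx⟩ := C.supp_nonempty a
  obtain ⟨t, ht, _⟩ := h.cover hx
  exact ⟨t, ht⟩

theorem Pat.eq_singleton (h : C.Pat a p) (ha : a ∈ p) : p = {a} := by
  cases h with
  | single => rfl
  | split hs hp hq =>
    rcases Finset.mem_union.1 ha with h | h
    · exact absurd (hp.mem_below h) (sp_not_below_left hs)
    · exact absurd (hq.mem_below h) (sp_not_below_right hs)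

/-- Case analysis in a convenient form. -/
theorem Pat.cases_split (h : C.Pat a p) (hne : p ≠ {a}) :
    ∃ b c p0 p1, C.Sp a b c ∧ C.Pat b p0 ∧ C.Pat c p1 ∧ p = p0 ∪ p1 := by
  cases h with
  | single => exact absurd rfl hne
  | split hs hp hq => exact ⟨_, _, _, _, hs, hp, hq, rfl⟩

theorem Pat.two_le_card (h : C.Pat a p) (hne : p ≠ {a}) : 2 ≤ p.card := by
  obtain ⟨b, c, p0, p1, hs, hp, hq, rfl⟩ := h.cases_split hne
  have hd : Disjoint p0 p1 := by
    rw [Finset.disjoint_left]
    intro x hx hx'
    exact Below.not_disjoint (hp.mem_below hx) (hq.mem_below hx') (C.sp_disj hs)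
  rw [Finset.card_union_of_disjoint hd]
  have h0 := Finset.card_pos.2 hp.nonempty
  have h1 := Finset.card_pos.2 hq.nonempty
  omega

theorem Pat.card_pos (h : C.Pat a p) : 1 ≤ p.card :=
  Finset.card_pos.2 h.nonempty

theorem PD.eq_of_below (hp : C.PD p) (hs : s ∈ p) (ht : t ∈ p) (h : C.Below s t) : s = t := by
  by_contra hne
  exact Below.not_disjoint (Below.refl s) h (hp s hs t ht hne)

theorem PD.eq_of_below_below {x : TT} (hp : C.PD p) (hs : s ∈ p) (ht : t ∈ p)
    (h : C.Below x s) (h' : C.Below x t) : s = t := by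
  by_contra hne
  exact Below.not_disjoint h h' (hp s hs t ht hne)

theorem PD.restr_self (hp : C.PD p) (ht : t ∈ p) : C.restr p t = {t} := by
  ext x
  rw [mem_restr, Finset.mem_singleton]
  constructor
  · rintro ⟨hx, hb⟩
    exact hp.eq_of_below hx ht hb
  · rintro rfl
    exact ⟨ht, Below.refl _⟩

theorem Pat.restr_top (h : C.Pat a p) : C.restr p a = p := by
  ext x
  rw [mem_restr]
  exact ⟨fun hx => hx.1, fun hx => ⟨hx, h.mem_below hx⟩⟩

/-- If `p` lives below `b`, `q` below `c`, and `b`, `c` are disjoint, restriction to something below `b`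
only sees `p`. -/
theorem restr_union_left (hbc : Disjoint (C.supp b) (C.supp c)) (hq : ∀ x ∈ q, C.Below x c)
    (ht : C.Below t b) : C.restr (p ∪ q) t = C.restr p t := by
  ext x
  rw [mem_restr, mem_restr, Finset.mem_union]
  constructor
  · rintro ⟨hx | hx, hb⟩
    · exact ⟨hx, hb⟩
    · exact absurd hbc (Below.not_disjoint (hb.trans ht) (hq x hx))
  · rintro ⟨hx, hb⟩
    exact ⟨Or.inl hx, hb⟩

theorem restr_union_right (hbc : Disjoint (C.supp b) (C.supp c)) (hp : ∀ x ∈ p, C.Below x b)
    (ht : C.Below t c) : C.restr (p ∪ q) t = C.restr q t := by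
  ext x
  rw [mem_restr, mem_restr, Finset.mem_union]
  constructor
  · rintro ⟨hx | hx, hb⟩
    · exact absurd hbc (Below.not_disjoint (hp x hx) (hb.trans ht))
    · exact ⟨hx, hb⟩
  · rintro ⟨hx, hb⟩
    exact ⟨Or.inr hx, hb⟩

/-! ### 2.4 substitution -/

theorem Pat.subst (h : C.Pat a p) (Q : TT → Finset TT) (hQ : ∀ t ∈ p, C.Pat t (Q t)) :
    C.Pat a (p.biUnion Q) := by
  induction h with
  | single a =>
    rw [Finset.singleton_biUnion]
    exact hQ a (Finset.mem_singleton_self a)
  | split hs hp hq ih1 ih2 =>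
    rw [Finset.union_biUnion]
    exact Pat.split hs (ih1 fun t ht => hQ t (Finset.mem_union_left _ ht))
      (ih2 fun t ht => hQ t (Finset.mem_union_right _ ht))

end CutSys

end Claimed.Agent.R152.B
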