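/-
Row 152, module B.  Blueprint `origin/helper22:docs/R152_B.md` sec. 2, basics on the refinement relation `Ref` (used in 2.6, 2.7, 2.9).
-/
import Claimed.Agent.R152.B.Cut.Pat

set_option autoImplicit false
open scoped Classical

namespace Claimed.Agent.R152.B

universe u v w
variable {TT : Type u} {X : Type v}

namespace CutSys

variable {C : CutSys TT X}
variable {a b c s t : TT} {p q r p' r' : Finset TT}

/-! ### `Ref` -/

theorem Ref.refl (hp : C.PD p) : C.Ref p p := by
  refine ⟨fun t ht => ?_, fun x hx => ⟨x, hx, Set.Subset.rfl⟩⟩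
  rw [hp.restr_self ht]
  exact Pat.single t

/-- Transitivity (uses 2.4). -/
theorem Ref.trans (hp : C.PD p) (h : C.Ref p q) (h' : C.Ref q r) : C.Ref p r := by
  refine ⟨fun t ht => ?_, fun x hx => ?_⟩
  · have h1 : C.Pat t ((C.restr q t).biUnion (fun s => C.restr r s)) :=
      (h.1 t ht).subst _ (fun s hs => h'.1 s ((C.mem_restr).1 hs).1)
    have h2 : (C.restr q t).biUnion (fun s => C.restr r s) = C.restr r t := by
      ext x
      rw [Finset.mem_biUnion, C.mem_restr]
      constructor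
      · rintro ⟨s, hs, hx⟩
        rw [C.mem_restr] at hs hx
        exact ⟨hx.1, Set.Subset.trans hx.2 hs.2⟩
      · rintro ⟨hxr, hxt⟩
        obtain ⟨s, hsq, hxs⟩ := h'.2 x hxr
        obtain ⟨t', ht', hst'⟩ := h.2 s hsq
        have e : t' = t := hp.eq_of_below_below ht' ht (Set.Subset.trans hxs hst') hxt
        subst e
        exact ⟨s, (C.mem_restr).2 ⟨hsq, hst'⟩, (C.mem_restr).2 ⟨hxr, hxs⟩⟩
    rw [h2] at h1
    exact h1
  · obtain ⟨s, hsq, hxs⟩ := h'.2 x hx
    obtain ⟨t, ht, hst⟩ := h.2 s hsq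
    exact ⟨t, ht, Set.Subset.trans hxs hst⟩

theorem Ref.of_pat (h : C.Pat a p) : C.Ref {a} p := by
  refine ⟨fun t ht => ?_, fun x hx => ⟨a, Finset.mem_singleton_self a, h.mem_below hx⟩⟩
  rw [Finset.mem_singleton] at ht
  subst ht
  rw [h.restr_top]
  exact h

theorem Ref.union (hbc : Disjoint (C.supp b) (C.supp c)) (hp : ∀ x ∈ p, C.Below x b)
    (hp' : ∀ x ∈ p', C.Below x c) (h : C.Ref p r) (h' : C.Ref p' r') :
    C.Ref (p ∪ p') (r ∪ r') := by
  have hr : ∀ x ∈ r, C.Below x b := fun x hx => by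
    obtain ⟨t, ht, hxt⟩ := h.2 x hx
    exact Set.Subset.trans hxt (hp t ht)
  have hr' : ∀ x ∈ r', C.Below x c := fun x hx => by
    obtain ⟨t, ht, hxt⟩ := h'.2 x hx
    exact Set.Subset.trans hxt (hp' t ht)
  refine ⟨fun t ht => ?_, fun x hx => ?_⟩
  · rcases Finset.mem_union.1 ht with ht | ht
    · rw [restr_union_left hbc hr' (hp t ht)]
      exact h.1 t ht
    · rw [restr_union_right hbc hr (hp' t ht)]
      exact h'.1 t ht
  · rcases Finset.mem_union.1 hx with hx | hx
    · obtain ⟨t, ht, hxt⟩ := h.2 x hx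
      exact ⟨t, Finset.mem_union_left _ ht, hxt⟩
    · obtain ⟨t, ht, hxt⟩ := h'.2 x hx
      exact ⟨t, Finset.mem_union_right _ ht, hxt⟩

/-- A refinement of a family with pairwise disjoint supports has pairwise disjoint supports. -/
theorem Ref.pd (hp : C.PD p) (h : C.Ref p r) : C.PD r := by
  intro s hs t ht hst
  obtain ⟨a, ha, hsa⟩ := h.2 s hs
  obtain ⟨b, hb, htb⟩ := h.2 t ht
  by_cases hab : a = b
  · subst hab
    exact (h.1 a ha).pd s ((C.mem_restr).2 ⟨hs, hsa⟩) t ((C.mem_restr).2 ⟨ht, htb⟩) hst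
  · exact (hp a ha b hb hab).mono hsa htb

/-- `r` is the union of its restrictions. -/
theorem Ref.eq_biUnion (h : C.Ref p r) : r = p.biUnion (fun t => C.restr r t) := by
  ext x
  rw [Finset.mem_biUnion]
  constructor
  · intro hx
    obtain ⟨t, ht, hxt⟩ := h.2 x hx
    exact ⟨t, ht, (C.mem_restr).2 ⟨hx, hxt⟩⟩
  · rintro ⟨t, -, hx⟩
    exact ((C.mem_restr).1 hx).1

end CutSys

end Claimed.Agent.R152.B
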