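/-
Row 152, module B.  Blueprint `origin/helper22:docs/R152_B.md` sec. 2, item 2.6 (CUT).
-/
import Claimed.Agent.R152.B.Cut.Ref
import Claimed.Agent.R152.B.Cut.Cell

set_option autoImplicit false
open scoped Classical

namespace Claimed.Agent.R152.B

universe u v w
variable {TT : Type u} {X : Type v}

namespace CutSys

variable {C : CutSys TT X}
variable {a c0 c1 : TT} {p : Finset TT}

/-- 2.6 CUT.  Induction on `Pat a p`.  single: `p_i = {c_i}`.  split, same cut: the given ones.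
split, other cut: cross, IH on `(b_k, p_k, (q_k0,q_k1))` gives `p_k0, p_k1`; `p_i := p_0i ∪ p_1i`. -/
theorem Pat.cut (h : C.Pat a p) (hs : C.Sp a c0 c1) :
    ∃ p0 p1, C.Pat c0 p0 ∧ C.Pat c1 p1 ∧ C.Ref p (p0 ∪ p1) := by
  induction h generalizing c0 c1 with
  | single a =>
    exact ⟨{c0}, {c1}, Pat.single c0, Pat.single c1,
      Ref.of_pat (Pat.split hs (Pat.single c0) (Pat.single c1))⟩
  | @split a b0 b1 P0 P1 hsp h0 h1 ih0 ih1 =>
    by_cases he : b0 = c0 ∧ b1 = c1
    · obtain ⟨rfl, rfl⟩ := he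
      exact ⟨P0, P1, h0, h1, Ref.refl (Pat.split hsp h0 h1).pd⟩
    · obtain ⟨q00, q01, q10, q11, k0, k1, l0, l1⟩ := C.cross hsp hs he
      obtain ⟨P00, P01, g00, g01, r0⟩ := ih0 k0
      obtain ⟨P10, P11, g10, g11, r1⟩ := ih1 k1
      refine ⟨P00 ∪ P10, P01 ∪ P11, Pat.split l0 g00 g10, Pat.split l1 g01 g11, ?_⟩
      rw [Finset.union_union_union_comm]
      exact Ref.union (C.sp_disj hsp) (fun x hx => h0.mem_below hx) (fun x hx => h1.mem_below hx)
        r0 r1

end CutSys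

end Claimed.Agent.R152.B
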