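/-
Row 152, module B.  Blueprint `origin/helper22:docs/R152_B.md` sec. 2, item 2.7 (JOIN).
-/
import Claimed.Agent.R152.B.Cut.CutLemma

set_option autoImplicit false
open scoped Classical

namespace Claimed.Agent.R152.B

universe u v w
variable {TT : Type u} {X : Type v}

namespace CutSys

variable {C : CutSys TT X}
variable {a : TT} {p q : Finset TT}

/-- 2.7 JOIN.  Induction on `Pat a q` for all `p`.  single: `r = p`.  split (c0,c1;q0,q1): `Pat.cut` gives `p0,p1`;
IH for `(c_i; p_i, q_i)` gives `r_i`; `r = r0 ∪ r1`; `Ref.trans`, `Ref.union`. -/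
theorem Pat.join (h : C.Pat a p) (h' : C.Pat a q) :
    ∃ r, C.Pat a r ∧ C.Ref p r ∧ C.Ref q r := by
  induction h' generalizing p with
  | single a => exact ⟨p, h, Ref.refl h.pd, Ref.of_pat h⟩
  | @split a c0 c1 q0 q1 hs h0 h1 ih0 ih1 =>
    obtain ⟨p0, p1, hp0, hp1, href⟩ := Pat.cut h hs
    obtain ⟨r0, hr0, hpr0, hqr0⟩ := ih0 hp0
    obtain ⟨r1, hr1, hpr1, hqr1⟩ := ih1 hp1
    have hd : Disjoint (C.supp c0) (C.supp c1) := C.sp_disj hs
    refine ⟨r0 ∪ r1, Pat.split hs hr0 hr1, ?_, ?_⟩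
    · exact Ref.trans h.pd href
        (Ref.union hd (fun x hx => hp0.mem_below hx) (fun x hx => hp1.mem_below hx) hpr0 hpr1)
    · exact Ref.union hd (fun x hx => h0.mem_below hx) (fun x hx => h1.mem_below hx) hqr0 hqr1

end CutSys

end Claimed.Agent.R152.B
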