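/-
Row 152, module B.  Blueprint `origin/helper22:docs/R152_B.md` sec. 2, item 2.5 (RESTRICTION).
-/
import Claimed.Agent.R152.B.Cut.Pat
import Claimed.Agent.R152.B.Cut.Cell

set_option autoImplicit false
open scoped Classical

namespace Claimed.Agent.R152.B

universe u v w
variable {TT : Type u} {X : Type v}

namespace CutSys

variable {C : CutSys TT X}
variable {a c0 c1 : TT} {p : Finset TT}

/-- bookkeeping for 2.5: if `supp q0 = supp b0 ∩ supp c`, `supp q1 = supp b1 ∩ supp c`, `p0` lives below `b0`
and `p1` below `b1`, then `(p0 ∪ p1)|c = p0|q0 ∪ p1|q1`. -/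
theorem restr_union_cross {b0 b1 c q0 q1 : TT} {p0 p1 : Finset TT}
    (e0 : C.supp q0 = C.supp b0 ∩ C.supp c) (e1 : C.supp q1 = C.supp b1 ∩ C.supp c)
    (h0 : ∀ t ∈ p0, C.Below t b0) (h1 : ∀ t ∈ p1, C.Below t b1) :
    C.restr (p0 ∪ p1) c = C.restr p0 q0 ∪ C.restr p1 q1 := by
  ext t
  simp only [mem_restr, Finset.mem_union]
  constructor
  · rintro ⟨ht | ht, hc⟩
    · left
      refine ⟨ht, ?_⟩
      show C.supp t ⊆ C.supp q0
      rw [e0]
      exact Set.subset_inter (h0 t ht) hc
    · right
      refine ⟨ht, ?_⟩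
      show C.supp t ⊆ C.supp q1
      rw [e1]
      exact Set.subset_inter (h1 t ht) hc
  · rintro (⟨ht, hq⟩ | ⟨ht, hq⟩)
    · refine ⟨Or.inl ht, ?_⟩
      have hq' : C.supp t ⊆ C.supp q0 := hq
      rw [e0] at hq'
      exact fun x hx => (hq' hx).2
    · refine ⟨Or.inr ht, ?_⟩
      have hq' : C.supp t ⊆ C.supp q1 := hq
      rw [e1] at hq'
      exact fun x hx => (hq' hx).2

/-- 2.5 RESTRICTION.  Induction on `Pat a p` (generalising `c0 c1`).
single: impossible (`sp_not_below_left/right`).  split (b0,b1;p0,p1): if (b0,b1)=(c0,c1) then `p|c_i = p_i`.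
Otherwise take the cross `q_ki` (`C.cross`).  `t ∈ p_k` is below `b_k` and below some `c_i`, hence below `q_ki`
(`cross_supp`).  IH for `(b_k,p_k)` and the cut `(q_k0,q_k1)`: `Pat q_ki (p_k|q_ki)`.
`p|c_i = p_0|q_0i ∪ p_1|q_1i` and `Sp c_i q_0i q_1i`. -/
theorem Pat.restrict (h : C.Pat a p) (hs : C.Sp a c0 c1)
    (hb : ∀ t ∈ p, C.Below t c0 ∨ C.Below t c1) :
    C.Pat c0 (C.restr p c0) ∧ C.Pat c1 (C.restr p c1) := by
  induction h generalizing c0 c1 with
  | single a =>
    rcases hb a (Finset.mem_singleton_self a) with h | h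
    · exact absurd h (sp_not_below_left hs)
    · exact absurd h (sp_not_below_right hs)
  | @split a b0 b1 p0 p1 hsp h0 h1 ih0 ih1 =>
    by_cases heq : b0 = c0 ∧ b1 = c1
    · obtain ⟨rfl, rfl⟩ := heq
      constructor
      · rw [restr_union_left (C.sp_disj hsp) (fun x hx => h1.mem_below hx) (Below.refl b0),
          h0.restr_top]
        exact h0
      · rw [restr_union_right (C.sp_disj hsp) (fun x hx => h0.mem_below hx) (Below.refl b1),
          h1.restr_top]
        exact h1
    · obtain ⟨q00, q01, q10, q11, k0, k1, m0, m1⟩ := C.cross hsp hs heq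
      obtain ⟨e00, e01, e10, e11⟩ := cross_supp hsp hs k0 k1 m0 m1
      have hb0 : ∀ t ∈ p0, C.Below t b0 := fun t ht => h0.mem_below ht
      have hb1 : ∀ t ∈ p1, C.Below t b1 := fun t ht => h1.mem_below ht
      have j0 := ih0 k0 (by
        intro t ht
        rcases hb t (Finset.mem_union_left _ ht) with hc | hc
        · left
          show C.supp t ⊆ C.supp q00
          rw [e00]
          exact Set.subset_inter (hb0 t ht) hc
        · right
          show C.supp t ⊆ C.supp q01
          rw [e01]
          exact Set.subset_inter (hb0 t ht) hc)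
      have j1 := ih1 k1 (by
        intro t ht
        rcases hb t (Finset.mem_union_right _ ht) with hc | hc
        · left
          show C.supp t ⊆ C.supp q10
          rw [e10]
          exact Set.subset_inter (hb1 t ht) hc
        · right
          show C.supp t ⊆ C.supp q11
          rw [e11]
          exact Set.subset_inter (hb1 t ht) hc)
      constructor
      · rw [restr_union_cross e00 e10 hb0 hb1]
        exact Pat.split m0 j0.1 j1.1
      · rw [restr_union_cross e01 e11 hb0 hb1]
        exact Pat.split m1 j0.2 j1.2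

end CutSys

end Claimed.Agent.R152.B
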