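/-
Row 152, module B.  Blueprint `origin/helper22:docs/R152_B.md` sec. 2, item 2.8 (order on partitions) and ascending paths.
-/
import Claimed.Agent.R152.B.Cut.Join
import Claimed.Agent.R152.B.Cut.Restrict

set_option autoImplicit false
open scoped Classical

namespace Claimed.Agent.R152.B

universe u v w
variable {TT : Type u} {X : Type v}

namespace CutSys

variable {C : CutSys TT X}
variable {a : TT} {u v w z o : Finset TT}

/-! ### 2.8 -/

theorem Le.refl (v : Finset TT) : C.Le v v :=
  ⟨fun a => {a}, fun a _ => Pat.single a, Finset.biUnion_singleton_eq_self.symm⟩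

/-- `P' a = (P a).biUnion Q`, `Pat.subst`, `Finset.biUnion_biUnion`. -/
theorem Le.trans (h : C.Le u v) (h' : C.Le v w) : C.Le u w := by
  obtain ⟨P, hP, rfl⟩ := h
  obtain ⟨Q, hQ, rfl⟩ := h'
  refine ⟨fun a => (P a).biUnion Q, fun a ha => ?_, Finset.biUnion_biUnion _ _ _⟩
  exact (hP a ha).subst Q fun t ht => hQ t (Finset.mem_biUnion.2 ⟨a, ha, ht⟩)

/-- the witness of `Le` is forced -/
theorem order_restr_eq (hv : C.PD v) {P : TT → Finset TT} (hP : ∀ a ∈ v, C.Pat a (P a))
    (ha : a ∈ v) : C.restr (v.biUnion P) a = P a := by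
  ext x
  rw [mem_restr, Finset.mem_biUnion]
  constructor
  · rintro ⟨⟨a', ha', hx⟩, hxa⟩
    have : a' = a := hv.eq_of_below_below ha' ha ((hP a' ha').mem_below hx) hxa
    rwa [this] at hx
  · intro hx
    exact ⟨⟨a, ha, hx⟩, (hP a ha).mem_below hx⟩

/-- For a family with disjoint supports the witness is forced: `P a = w|a`. -/
theorem le_iff_ref (hv : C.PD v) : C.Le v w ↔ C.Ref v w := by
  constructor
  · rintro ⟨P, hP, rfl⟩
    refine ⟨fun t ht => ?_, fun x hx => ?_⟩
    · rw [order_restr_eq hv hP ht]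
      exact hP t ht
    · obtain ⟨t, ht, hxt⟩ := Finset.mem_biUnion.1 hx
      exact ⟨t, ht, (hP t ht).mem_below hxt⟩
  · intro h
    exact ⟨fun t => C.restr w t, h.1, h.eq_biUnion⟩

theorem Exp.le (h : C.Exp v w) : C.Le v w := by
  obtain ⟨a, ha, b, c, hs, -, -, rfl⟩ := h
  refine ⟨fun t => if t = a then {b} ∪ {c} else {t}, fun t _ => ?_, ?_⟩
  · by_cases hta : t = a
    · subst hta
      simp only [if_true]
      exact Pat.split hs (Pat.single b) (Pat.single c)
    · simp only [if_neg hta]
      exact Pat.single t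
  · ext x
    rw [mem_rep, Finset.mem_biUnion]
    constructor
    · rintro (rfl | rfl | ⟨hxa, hxv⟩)
      · exact ⟨a, ha, by simp⟩
      · exact ⟨a, ha, by simp⟩
      · exact ⟨x, hxv, by simp [hxa]⟩
    · rintro ⟨t, ht, hx⟩
      by_cases hta : t = a
      · subst hta
        simp only [if_true, Finset.mem_union, Finset.mem_singleton] at hx
        rcases hx with hx | hx
        · exact Or.inl hx
        · exact Or.inr (Or.inl hx)
      · simp only [if_neg hta, Finset.mem_singleton] at hx
        subst hx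
        exact Or.inr (Or.inr ⟨hta, ht⟩)

theorem Le.isPart (hv : C.IsPart v) (h : C.Le v w) : C.IsPart w := by
  refine ⟨((le_iff_ref hv.disj).1 h).pd hv.disj, fun x => ?_⟩
  obtain ⟨P, hP, rfl⟩ := h
  obtain ⟨a, ha, hx⟩ := hv.cover x
  obtain ⟨t, ht, hxt⟩ := (hP a ha).cover hx
  exact ⟨t, Finset.mem_biUnion.2 ⟨a, ha, ht⟩, hxt⟩

theorem Le.exists_exp (hv : C.IsPart v) (h : C.Le v w) (hne : v ≠ w) :
    ∃ v', C.Exp v v' ∧ C.Le v' w := by
  obtain ⟨P, hP, rfl⟩ := h
  have hex : ∃ a ∈ v, P a ≠ {a} := by
    by_contra hcon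
    push Not at hcon
    apply hne
    have : v.biUnion P = v.biUnion (fun a => {a}) := Finset.biUnion_congr rfl hcon
    rw [this, Finset.biUnion_singleton_eq_self]
  obtain ⟨a, ha, hPa⟩ := hex
  obtain ⟨b, c, p0, p1, hs, hp0, hp1, hPeq⟩ := (hP a ha).cases_split hPa
  have hbv : b ∉ v := hv.sp_not_mem_left ha hs
  have hcv : c ∉ v := hv.sp_not_mem_right ha hs
  have hbc : b ≠ c := sp_ne hs
  refine ⟨rep v a b c, hv.exp_rep ha hs,
    fun t => if t = b then p0 else if t = c then p1 else P t, fun t ht => ?_, ?_⟩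
  · rcases mem_rep.1 ht with rfl | rfl | ⟨_, htv⟩
    · simpa using hp0
    · simpa [hbc.symm] using hp1
    · have h1 : t ≠ b := fun e => hbv (e ▸ htv)
      have h2 : t ≠ c := fun e => hcv (e ▸ htv)
      simpa [h1, h2] using hP t htv
  · ext x
    rw [Finset.mem_biUnion, Finset.mem_biUnion]
    constructor
    · rintro ⟨t, ht, hx⟩
      by_cases hta : t = a
      · subst hta
        rw [hPeq, Finset.mem_union] at hx
        rcases hx with hx | hx
        · exact ⟨b, mem_rep.2 (Or.inl rfl), by simpa using hx⟩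
        · exact ⟨c, mem_rep.2 (Or.inr (Or.inl rfl)), by simpa [hbc.symm] using hx⟩
      · have h1 : t ≠ b := fun e => hbv (e ▸ ht)
        have h2 : t ≠ c := fun e => hcv (e ▸ ht)
        exact ⟨t, mem_rep.2 (Or.inr (Or.inr ⟨hta, ht⟩)), by simpa [h1, h2] using hx⟩
    · rintro ⟨t, ht, hx⟩
      rcases mem_rep.1 ht with rfl | rfl | ⟨_, htv⟩
      · refine ⟨a, ha, ?_⟩
        rw [hPeq, Finset.mem_union]
        left
        simpa using hx
      · refine ⟨a, ha, ?_⟩
        rw [hPeq, Finset.mem_union]
        right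
        simpa [hbc.symm] using hx
      · have h1 : t ≠ b := fun e => hbv (e ▸ htv)
        have h2 : t ≠ c := fun e => hcv (e ▸ htv)
        exact ⟨t, htv, by simpa [h1, h2] using hx⟩

theorem Le.card_le (hv : C.IsPart v) (h : C.Le v w) : v.card ≤ w.card := by
  obtain ⟨P, hP, rfl⟩ := h
  have hdisj : ∀ s ∈ v, ∀ t ∈ v, s ≠ t → Disjoint (P s) (P t) := by
    intro s hs t ht hst
    rw [Finset.disjoint_left]
    intro x hxs hxt
    exact hst (hv.eq_of_below_below hs ht ((hP s hs).mem_below hxs) ((hP t ht).mem_below hxt))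
  rw [Finset.card_biUnion hdisj]
  calc v.card = ∑ _a ∈ v, 1 := by simp
    _ ≤ ∑ a ∈ v, (P a).card := Finset.sum_le_sum fun a ha => (hP a ha).card_pos

theorem Le.eq_of_card_le (hv : C.IsPart v) (h : C.Le v w) (hc : w.card ≤ v.card) : v = w := by
  by_contra hne
  obtain ⟨v', he, hle⟩ := h.exists_exp hv hne
  have h1 := he.card
  have h2 := hle.card_le (he.isPart hv)
  omega

/-- Induction on `w.card - v.card` with `Le.exists_exp`. -/
theorem Le.mem_K (ho : C.IsPart o) (hv : v ∈ C.K o) (h : C.Le v w) : w ∈ C.K o := by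
  induction hn : w.card - v.card using Nat.strong_induction_on generalizing v with
  | _ n ih =>
    by_cases hne : v = w
    · rwa [← hne]
    · have hvp := K_isPart ho hv
      obtain ⟨v', he, hle⟩ := h.exists_exp hvp hne
      have h1 := he.card
      have h2 := hle.card_le (he.isPart hvp)
      exact ih (w.card - v'.card) (by omega) (K_exp hv he) hle rfl

/-! ### ascending paths -/

variable {G : Type w} [Group G] {φ : Finset TT → Finset TT → G} {g h : G}

theorem Asc.le (H : C.Asc φ v w g) : C.Le v w := by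
  induction H with
  | refl v => exact Le.refl v
  | step he _ ih => exact he.le.trans ih

theorem Asc.trans (H : C.Asc φ u v g) (H' : C.Asc φ v w h) : C.Asc φ u w (g * h) := by
  induction H with
  | refl v => rwa [one_mul]
  | step he _ ih =>
    rw [mul_assoc]
    exact Asc.step he (ih H')

theorem Asc.card_le (H : C.Asc φ v w g) : v.card ≤ w.card := by
  induction H with
  | refl v => exact le_rfl
  | step he _ ih =>
    have := he.card
    omega

/-- An ascending path between vertices with the same number of tiles is trivial. -/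
theorem Asc.eq_one_of_card_le (H : C.Asc φ v w g) (hc : w.card ≤ v.card) : v = w ∧ g = 1 := by
  cases H with
  | refl v => exact ⟨rfl, rfl⟩
  | step he H' =>
    have h1 := he.card
    have h2 := H'.card_le
    omega

theorem Le.exists_asc (φ : Finset TT → Finset TT → G) (hv : C.IsPart v) (h : C.Le v w) :
    ∃ g, C.Asc φ v w g := by
  induction hn : w.card - v.card using Nat.strong_induction_on generalizing v with
  | _ n ih =>
    by_cases hne : v = w
    · subst hne
      exact ⟨1, Asc.refl v⟩
    · obtain ⟨v', he, hle⟩ := h.exists_exp hv hne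
      have h1 := he.card
      have h2 := hle.card_le (he.isPart hv)
      obtain ⟨g, hg⟩ := ih (w.card - v'.card) (by omega) (he.isPart hv) hle rfl
      exact ⟨φ v v' * g, Asc.step he hg⟩

end CutSys

end Claimed.Agent.R152.B
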