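/-
Row 152, module B.  Blueprint `origin/helper22:docs/R152_B.md` sec. 2, item 2.11 (LEMMA C).
Use `le_iff_ref` and `Pat.restrict`: every tile of `w` is below a tile of `v_1` and below a tile of `v_2`.
-/
import Claimed.Agent.R152.B.Cut.Order

set_option autoImplicit false
open scoped Classical

namespace Claimed.Agent.R152.B

universe u v w
variable {TT : Type u} {X : Type v}

namespace CutSys

variable {C : CutSys TT X}
variable {a a' b0 b1 c0 c1 q00 q01 q10 q11 : TT} {v w : Finset TT}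

/-- 2.11 (i): apply 2.5 to `Pat a' (w|a')` (from `v_1 ≤ w`) and the cut `(c0,c1)`. -/
theorem lemmaC_sq (hv : C.IsPart v) (ha : a ∈ v) (ha' : a' ∈ v) (hne : a ≠ a')
    (hb : C.Sp a b0 b1) (hc : C.Sp a' c0 c1)
    (h1 : C.Le (rep v a b0 b1) w) (h2 : C.Le (rep v a' c0 c1) w) :
    C.Le (rep (rep v a b0 b1) a' c0 c1) w := by
  have hv1 : C.IsPart (rep v a b0 b1) := hv.isPart_rep ha hb
  have hv2 : C.IsPart (rep v a' c0 c1) := hv.isPart_rep ha' hc
  have ha1 : a' ∈ rep v a b0 b1 := mem_rep.2 (Or.inr (Or.inr ⟨hne.symm, ha'⟩))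
  have hv12 : C.IsPart (rep (rep v a b0 b1) a' c0 c1) := hv1.isPart_rep ha1 hc
  have r1 : C.Ref (rep v a b0 b1) w := (le_iff_ref hv1.disj).1 h1
  have r2 : C.Ref (rep v a' c0 c1) w := (le_iff_ref hv2.disj).1 h2
  refine (le_iff_ref hv12.disj).2 ⟨?_, ?_⟩
  · intro t ht
    rcases mem_rep.1 ht with rfl | rfl | ⟨_, ht1⟩
    · exact r2.1 _ (mem_rep.2 (Or.inl rfl))
    · exact r2.1 _ (mem_rep.2 (Or.inr (Or.inl rfl)))
    · exact r1.1 _ ht1
  · intro x hx
    obtain ⟨t, ht, hxt⟩ := r1.2 x hx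
    by_cases hta : t = a'
    · subst hta
      obtain ⟨s, hs, hxs⟩ := r2.2 x hx
      rcases mem_rep.1 hs with rfl | rfl | ⟨hsne, hsv⟩
      · exact ⟨_, mem_rep.2 (Or.inl rfl), hxs⟩
      · exact ⟨_, mem_rep.2 (Or.inr (Or.inl rfl)), hxs⟩
      · exact absurd (hv.eq_of_below_below hsv ha' hxs hxt) hsne
    · exact ⟨t, mem_rep.2 (Or.inr (Or.inr ⟨hta, ht⟩)), hxt⟩

/-- restriction to a tile `q` below `b` only sees `w|b`. -/
theorem restr_restr_of_below {b q : TT} (h : C.Below q b) :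
    C.restr (C.restr w b) q = C.restr w q := by
  ext t
  simp only [mem_restr]
  constructor
  · rintro ⟨⟨h1, _⟩, h3⟩
    exact ⟨h1, h3⟩
  · rintro ⟨h1, h3⟩
    exact ⟨⟨h1, h3.trans h⟩, h3⟩

/-- 2.11 (ii): apply 2.5 to `Pat b_k (w|b_k)` and the cut `(q_k0,q_k1)`. -/
theorem lemmaC_hx (hv : C.IsPart v) (ha : a ∈ v) (hb : C.Sp a b0 b1) (hc : C.Sp a c0 c1)
    (h0 : C.Sp b0 q00 q01) (h1 : C.Sp b1 q10 q11) (k0 : C.Sp c0 q00 q10) (k1 : C.Sp c1 q01 q11)
    (H1 : C.Le (rep v a b0 b1) w) (H2 : C.Le (rep v a c0 c1) w) :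
    C.Le (rep (rep (rep v a b0 b1) b0 q00 q01) b1 q10 q11) w := by
  have hv1 : C.IsPart (rep v a b0 b1) := hv.isPart_rep ha hb
  have hv2 : C.IsPart (rep v a c0 c1) := hv.isPart_rep ha hc
  have hb0m : b0 ∈ rep v a b0 b1 := mem_rep.2 (Or.inl rfl)
  have hb1m : b1 ∈ rep v a b0 b1 := mem_rep.2 (Or.inr (Or.inl rfl))
  have hu2 : C.IsPart (rep (rep v a b0 b1) b0 q00 q01) := hv1.isPart_rep hb0m h0
  have hb1m' : b1 ∈ rep (rep v a b0 b1) b0 q00 q01 :=
    mem_rep.2 (Or.inr (Or.inr ⟨(sp_ne hb).symm, hb1m⟩))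
  have hu3 : C.IsPart (rep (rep (rep v a b0 b1) b0 q00 q01) b1 q10 q11) :=
    hu2.isPart_rep hb1m' h1
  have r1 : C.Ref (rep v a b0 b1) w := (le_iff_ref hv1.disj).1 H1
  have r2 : C.Ref (rep v a c0 c1) w := (le_iff_ref hv2.disj).1 H2
  obtain ⟨s00, s01, s10, s11⟩ := cross_supp hb hc h0 h1 k0 k1
  -- every tile of `w` below `a` is below `c0` or `c1`
  have key : ∀ x ∈ w, C.Below x a → C.Below x c0 ∨ C.Below x c1 := by
    intro x hx hxa
    obtain ⟨s, hs, hxs⟩ := r2.2 x hx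
    rcases mem_rep.1 hs with rfl | rfl | ⟨hsne, hsv⟩
    · exact Or.inl hxs
    · exact Or.inr hxs
    · exact absurd (hv.eq_of_below_below hsv ha hxs hxa) hsne
  have key0 : ∀ x ∈ w, C.Below x b0 → C.Below x q00 ∨ C.Below x q01 := by
    intro x hx hxb
    rcases key x hx (hxb.trans (sp_below_left hb)) with h | h
    · left
      show C.supp x ⊆ C.supp q00
      rw [s00]
      exact Set.subset_inter hxb h
    · right
      show C.supp x ⊆ C.supp q01
      rw [s01]
      exact Set.subset_inter hxb h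
  have key1 : ∀ x ∈ w, C.Below x b1 → C.Below x q10 ∨ C.Below x q11 := by
    intro x hx hxb
    rcases key x hx (hxb.trans (sp_below_right hb)) with h | h
    · left
      show C.supp x ⊆ C.supp q10
      rw [s10]
      exact Set.subset_inter hxb h
    · right
      show C.supp x ⊆ C.supp q11
      rw [s11]
      exact Set.subset_inter hxb h
  have P0 := Pat.restrict (r1.1 b0 hb0m) h0
    (fun t ht => key0 t (C.mem_restr.1 ht).1 (C.mem_restr.1 ht).2)
  have P1 := Pat.restrict (r1.1 b1 hb1m) h1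
    (fun t ht => key1 t (C.mem_restr.1 ht).1 (C.mem_restr.1 ht).2)
  rw [restr_restr_of_below (sp_below_left h0), restr_restr_of_below (sp_below_right h0)] at P0
  rw [restr_restr_of_below (sp_below_left h1), restr_restr_of_below (sp_below_right h1)] at P1
  have m00 : q00 ∈ rep (rep (rep v a b0 b1) b0 q00 q01) b1 q10 q11 :=
    mem_rep.2 (Or.inr (Or.inr ⟨fun h => by
          have hd : Disjoint (C.supp b0) (C.supp b1) := C.sp_disj hb
          have : C.Below q00 b0 := sp_below_left h0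
          have h' : C.Below q00 b1 := h ▸ Below.refl q00
          exact Below.not_disjoint this h' hd, mem_rep.2 (Or.inl rfl)⟩))
  have m01 : q01 ∈ rep (rep (rep v a b0 b1) b0 q00 q01) b1 q10 q11 :=
    mem_rep.2 (Or.inr (Or.inr ⟨fun h => by
          have hd : Disjoint (C.supp b0) (C.supp b1) := C.sp_disj hb
          have : C.Below q01 b0 := sp_below_right h0
          have h' : C.Below q01 b1 := h ▸ Below.refl q01
          exact Below.not_disjoint this h' hd, mem_rep.2 (Or.inr (Or.inl rfl))⟩))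
  have m10 : q10 ∈ rep (rep (rep v a b0 b1) b0 q00 q01) b1 q10 q11 := mem_rep.2 (Or.inl rfl)
  have m11 : q11 ∈ rep (rep (rep v a b0 b1) b0 q00 q01) b1 q10 q11 :=
    mem_rep.2 (Or.inr (Or.inl rfl))
  refine (le_iff_ref hu3.disj).2 ⟨?_, ?_⟩
  · intro t ht
    rcases mem_rep.1 ht with rfl | rfl | ⟨_, ht2⟩
    · exact P1.1
    · exact P1.2
    · rcases mem_rep.1 ht2 with rfl | rfl | ⟨_, ht1⟩
      · exact P0.1
      · exact P0.2
      · exact r1.1 _ ht1
  · intro x hx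
    obtain ⟨t, ht, hxt⟩ := r1.2 x hx
    by_cases htb0 : t = b0
    · subst htb0
      rcases key0 x hx hxt with h | h
      · exact ⟨_, m00, h⟩
      · exact ⟨_, m01, h⟩
    · by_cases htb1 : t = b1
      · subst htb1
        rcases key1 x hx hxt with h | h
        · exact ⟨_, m10, h⟩
        · exact ⟨_, m11, h⟩
      · exact ⟨t, mem_rep.2 (Or.inr (Or.inr ⟨htb1, mem_rep.2 (Or.inr (Or.inr ⟨htb0, ht⟩))⟩)), hxt⟩

end CutSys

end Claimed.Agent.R152.B
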