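/-
Row 152, module B.  Blueprint `origin/helper22:docs/R152_B.md` sec. 2, item 2.12 (COHERENCE).
-/
import Claimed.Agent.R152.B.Cut.LemmaC

set_option autoImplicit false
open scoped Classical

namespace Claimed.Agent.R152.B

universe u v w
variable {TT : Type u} {X : Type v}

namespace CutSys

variable {C : CutSys TT X}
variable {G : Type w} [Group G] {φ : Finset TT → Finset TT → G}
variable {v w o : Finset TT} {M : ℕ} {g g' : G}

/-- the induction behind `coherence`. -/
theorem coherence_aux (ho : C.IsPart o) (hφ : C.Flat o φ M) (hw : w.card ≤ M) (n : ℕ) :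
    ∀ (v : Finset TT) (g g' : G), w.card - v.card = n → v ∈ C.K o →
      C.Asc φ v w g → C.Asc φ v w g' → g = g' := by
  induction n using Nat.strong_induction_on with
  | _ n ih =>
    intro v g g' hn hv H H'
    have hvP : C.IsPart v := K_isPart ho hv
    cases H with
    | refl => exact (H'.eq_one_of_card_le le_rfl).2.symm
    | @step _ v1 _ g1 e1 A1 =>
      cases H' with
      | refl => exact ((Asc.step e1 A1).eq_one_of_card_le le_rfl).2
      | @step _ v2 _ g2 e2 A2 =>
        have hc1 : v1.card = v.card + 1 := e1.card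
        have hc2 : v2.card = v.card + 1 := e2.card
        have hl1 : v1.card ≤ w.card := A1.card_le
        have hl2 : v2.card ≤ w.card := A2.card_le
        have hK1 : v1 ∈ C.K o := K_exp hv e1
        have hK2 : v2 ∈ C.K o := K_exp hv e2
        have ih1 : ∀ k k' : G, C.Asc φ v1 w k → C.Asc φ v1 w k' → k = k' := fun k k' =>
          ih (w.card - v1.card) (by omega) v1 k k' rfl hK1
        have ih2 : ∀ k k' : G, C.Asc φ v2 w k → C.Asc φ v2 w k' → k = k' := fun k k' =>
          ih (w.card - v2.card) (by omega) v2 k k' rfl hK2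
        by_cases h12 : v1 = v2
        · subst h12
          rw [ih1 g1 g2 A1 A2]
        · obtain ⟨a, ha, b0, b1, hb, -, -, rfl⟩ := e1
          obtain ⟨a', ha', c0, c1, hc, -, -, rfl⟩ := e2
          by_cases haa : a = a'
          · subst haa
            have hne : ¬ (b0 = c0 ∧ b1 = c1) := by
              rintro ⟨rfl, rfl⟩
              exact h12 rfl
            obtain ⟨q00, q01, q10, q11, h0, h1, k0, k1⟩ := C.cross hb hc hne
            have hcell : C.HxCell v (rep v a b0 b1) (rep (rep v a b0 b1) b0 q00 q01)
                (rep v a c0 c1) (rep (rep v a c0 c1) c0 q00 q10)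
                (rep (rep (rep v a b0 b1) b0 q00 q01) b1 q10 q11) :=
              ⟨a, ha, b0, b1, c0, c1, q00, q01, q10, q11, hb, hc, h0, h1, k0, k1,
                rfl, rfl, rfl, rfl, rfl⟩
            obtain ⟨x1, x2, x3, y1, y2, y3⟩ := hcell.exp hvP
            have hle := lemmaC_hx hvP ha hb hc h0 h1 k0 k1 A1.le A2.le
            have hP : C.IsPart (rep (rep (rep v a b0 b1) b0 q00 q01) b1 q10 q11) :=
              x3.isPart (x2.isPart (x1.isPart hvP))
            obtain ⟨r, hr⟩ := hle.exists_asc φ hP
            have hcard := (hle.card_le hP).trans hw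
            have f := hφ.hx v hv _ _ _ _ _ hcell hcard
            rw [ih1 g1 _ A1 (Asc.step x2 (Asc.step x3 hr)),
              ih2 g2 _ A2 (Asc.step y2 (Asc.step y3 hr))]
            simp only [← mul_assoc]
            rw [f]
          · have hcell : C.SqCell v (rep v a b0 b1) (rep v a' c0 c1)
                (rep (rep v a b0 b1) a' c0 c1) :=
              ⟨a, ha, a', ha', haa, b0, b1, c0, c1, hb, hc, rfl, rfl, rfl⟩
            obtain ⟨x1, x2, y1, y2⟩ := hcell.exp hvP
            have hle := lemmaC_sq hvP ha ha' haa hb hc A1.le A2.le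
            have hP : C.IsPart (rep (rep v a b0 b1) a' c0 c1) := x2.isPart (x1.isPart hvP)
            obtain ⟨r, hr⟩ := hle.exists_asc φ hP
            have hcard := (hle.card_le hP).trans hw
            have f := hφ.sq v hv _ _ _ hcell hcard
            rw [ih1 g1 _ A1 (Asc.step x2 hr), ih2 g2 _ A2 (Asc.step y2 hr)]
            simp only [← mul_assoc]
            rw [f]

/-- 2.12 COHERENCE.  Induction on `w.card - v.card`.  Paths `v, v_1, ..` and `v, v_2, ..`.  `v_1 = v_2`: IH.
Otherwise `v_1 = rep v a b0 b1`, `v_2 = rep v a' c0 c1`; let `v_12` be the vertex of 2.11 (`lemmaC_sq` if `a ≠ a'`,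
`C.cross` + `lemmaC_hx` if `a = a'`); `v_12 ≤ w`, choose an ascending path `ρ` from `v_12` to `w` (`Le.exists_asc`).
IH at `(v_1,w)`: hol(tail_1) = hol(v_1 -> v_12 [one or two steps]) * hol ρ; same for `v_2`; `Flat.sq` resp. `Flat.hx`
(top `v_12`, `v_12.card ≤ w.card ≤ M` by `Le.card_le`) finishes. -/
theorem coherence (ho : C.IsPart o) (hφ : C.Flat o φ M) (hv : v ∈ C.K o) (hw : w.card ≤ M)
    (H : C.Asc φ v w g) (H' : C.Asc φ v w g') : g = g' :=
  coherence_aux ho hφ hw _ v g g' rfl hv H H'

end CutSys

end Claimed.Agent.R152.B
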