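/-
Row 152, module B.  Blueprint `origin/helper22:docs/R152_B.md` sec. 2, items 2.9, 2.10.
-/
import Claimed.Agent.R152.B.Cut.Order

set_option autoImplicit false
open scoped Classical

namespace Claimed.Agent.R152.B

universe u v w
variable {TT : Type u} {X : Type v}

namespace CutSys

variable {C : CutSys TT X}
variable {a : TT} {u v w z o : Finset TT}

/-! ### 2.9, 2.10 -/

/-- Auxiliary for 2.9: if `P a` is refined by `R a` for every tile `a` of the partition `u`, then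
`u.biUnion P ≤ u.biUnion R`. -/
theorem le_biUnion_of_ref (hu : C.IsPart u) {P R : TT → Finset TT}
    (hP : ∀ a ∈ u, C.Pat a (P a)) (hR : ∀ a ∈ u, C.Pat a (R a))
    (hPR : ∀ a ∈ u, C.Ref (P a) (R a)) : C.Le (u.biUnion P) (u.biUnion R) := by
  have hv : C.IsPart (u.biUnion P) := Le.isPart hu ⟨P, hP, rfl⟩
  rw [le_iff_ref hv.disj]
  refine ⟨?_, ?_⟩
  · intro t ht
    obtain ⟨a, ha, hta⟩ := Finset.mem_biUnion.1 ht
    have hrestr : C.restr (u.biUnion R) t = C.restr (R a) t := by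
      ext x
      simp only [mem_restr, Finset.mem_biUnion]
      constructor
      · rintro ⟨⟨a', ha', hx⟩, hxt⟩
        have h1 : C.Below x a' := (hR a' ha').mem_below hx
        have h2 : C.Below x a := hxt.trans ((hP a ha).mem_below hta)
        have : a' = a := hu.eq_of_below_below ha' ha h1 h2
        subst this
        exact ⟨hx, hxt⟩
      · rintro ⟨hx, hxt⟩
        exact ⟨⟨a, ha, hx⟩, hxt⟩
    rw [hrestr]
    exact (hPR a ha).1 t hta
  · intro x hx
    obtain ⟨a, ha, hxa⟩ := Finset.mem_biUnion.1 hx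
    obtain ⟨t, ht, hxt⟩ := (hPR a ha).2 x hxa
    exact ⟨t, Finset.mem_biUnion.2 ⟨a, ha, ht⟩, hxt⟩

/-- 2.9: `Pat.join` tile by tile. -/
theorem Le.join (hu : C.IsPart u) (h : C.Le u v) (h' : C.Le u w) :
    ∃ z, C.Le v z ∧ C.Le w z := by
  obtain ⟨P, hP, rfl⟩ := h
  obtain ⟨P', hP', rfl⟩ := h'
  have hex : ∀ a : TT, ∃ r : Finset TT, a ∈ u → (C.Pat a r ∧ C.Ref (P a) r ∧ C.Ref (P' a) r) := by
    intro a
    by_cases ha : a ∈ u
    · obtain ⟨r, hr⟩ := (hP a ha).join (hP' a ha)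
      exact ⟨r, fun _ => hr⟩
    · exact ⟨∅, fun h => absurd h ha⟩
  choose R hR using hex
  exact ⟨u.biUnion R,
    le_biUnion_of_ref hu hP (fun a ha => (hR a ha).1) (fun a ha => (hR a ha).2.1),
    le_biUnion_of_ref hu hP' (fun a ha => (hR a ha).1) (fun a ha => (hR a ha).2.2)⟩

/-- Auxiliary for 2.10: every vertex of `K o` has a common upper bound with the base vertex. -/
theorem K_directed_base (ho : C.IsPart o) (hw : w ∈ C.K o) :
    ∃ z ∈ C.K o, C.Le o z ∧ C.Le w z := by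
  refine K_induction (C := C) (o := o)
    (p := fun w => ∃ z ∈ C.K o, C.Le o z ∧ C.Le w z) ?_ ?_ ?_ hw
  · exact ⟨o, K_base o, Le.refl o, Le.refl o⟩
  · rintro x hx y hxy ⟨z, hz, hoz, hxz⟩
    obtain ⟨z', hzz', hyz'⟩ := Le.join (K_isPart ho hx) hxz hxy.le
    exact ⟨z', Le.mem_K ho hz hzz', hoz.trans hzz', hyz'⟩
  · rintro y _ x hxy ⟨z, hz, hoz, hyz⟩
    exact ⟨z, hz, hoz, hxy.le.trans hyz⟩

/-- 2.10 DIRECTED.  Induction along the zigzag (`K_induction` for `w`, all `v` fixed as `o`, then combine):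
if `z ≥ v, u` and `Exp u u'` use 2.9 for `u ≤ z`, `u ≤ u'`; if `Exp u' u` then `u' ≤ u ≤ z`. -/
theorem K_directed (ho : C.IsPart o) (hv : v ∈ C.K o) (hw : w ∈ C.K o) :
    ∃ z ∈ C.K o, C.Le v z ∧ C.Le w z := by
  obtain ⟨z1, hz1, hoz1, hvz1⟩ := K_directed_base ho hv
  obtain ⟨z2, _, hoz2, hwz2⟩ := K_directed_base ho hw
  obtain ⟨z, hz1z, hz2z⟩ := Le.join ho hoz1 hoz2
  exact ⟨z, Le.mem_K ho hz1 hz1z, hvz1.trans hz1z, hwz2.trans hz2z⟩

end CutSys

end Claimed.Agent.R152.B
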