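/-
Row 152, module B.  Blueprint `origin/helper22:docs/R152_B.md` sec. 2, item 2.13 (POTENTIAL).
-/
import Claimed.Agent.R152.B.Cut.Coherence
import Claimed.Agent.R152.B.Cut.Directed

set_option autoImplicit false
open scoped Classical

namespace Claimed.Agent.R152.B

universe u v w
variable {TT : Type u} {X : Type v}

namespace CutSys

variable {C : CutSys TT X}
variable {G : Type w} [Group G] {φ : Finset TT → Finset TT → G}
variable {v w o : Finset TT} {M : ℕ} {g g' : G}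

/-- `PotRel o φ u x`: `x = A(o,z) A(u,z)⁻¹` for some `z ∈ K o` above `o` and `u`. -/
def PotRel (C : CutSys TT X) (o : Finset TT) (φ : Finset TT → Finset TT → G) (u : Finset TT) (x : G) : Prop :=
  ∃ z ∈ C.K o, ∃ a b : G, C.Asc φ o z a ∧ C.Asc φ u z b ∧ x = a * b⁻¹

theorem PotRel.unique (ho : C.IsPart o) (hφ : ∀ M, C.Flat o φ M) {u : Finset TT} (hu : u ∈ C.K o)
    {x x' : G} (h : C.PotRel o φ u x) (h' : C.PotRel o φ u x') : x = x' := by
  obtain ⟨z, hz, a, b, ha, hb, rfl⟩ := h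
  obtain ⟨z', hz', a', b', ha', hb', rfl⟩ := h'
  obtain ⟨y, hzy, hzy'⟩ := Le.join (K_isPart ho hu) hb.le hb'.le
  obtain ⟨c, hc⟩ := Le.exists_asc φ (K_isPart ho hz) hzy
  obtain ⟨c', hc'⟩ := Le.exists_asc φ (K_isPart ho hz') hzy'
  have e1 : a * c = a' * c' :=
    coherence ho (hφ y.card) (K_base o) le_rfl (ha.trans hc) (ha'.trans hc')
  have e2 : b * c = b' * c' :=
    coherence ho (hφ y.card) hu le_rfl (hb.trans hc) (hb'.trans hc')
  calc a * b⁻¹ = (a * c) * (b * c)⁻¹ := by group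
    _ = (a' * c') * (b' * c')⁻¹ := by rw [e1, e2]
    _ = a' * b'⁻¹ := by group

theorem PotRel.exists (ho : C.IsPart o) (φ : Finset TT → Finset TT → G) {u : Finset TT}
    (hu : u ∈ C.K o) : ∃ z ∈ C.K o, ∃ a b : G, C.Asc φ o z a ∧ C.Asc φ u z b := by
  obtain ⟨z, hz, h1, h2⟩ := K_directed ho (K_base o) hu
  obtain ⟨a, ha⟩ := Le.exists_asc φ ho h1
  obtain ⟨b, hb⟩ := Le.exists_asc φ (K_isPart ho hu) h2
  exact ⟨z, hz, a, b, ha, hb⟩

/-- 2.13 POTENTIAL.  `A(v,z)` := holonomy of any ascending path from `v` to `z` (`v ≤ z`; well defined by 2.12;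
`A(v,z) A(z,z') = A(v,z')`).  `f(u) := A(o,z) A(u,z)⁻¹` for any `z ≥ o, u` (`K_directed`); independent of `z`
(two choices `z, z'` are both `≥ u`, take `z'' ≥ z, z'` by `Le.join`).  For `Exp v w` take `z ≥ o, w`:
`A(v,z) = φ(v,w) A(w,z)`. -/
theorem potential (ho : C.IsPart o) (hφ : ∀ M, C.Flat o φ M) :
    ∃ f : Finset TT → G, f o = 1 ∧ ∀ v ∈ C.K o, ∀ w, C.Exp v w → f w = f v * φ v w := by
  let f : Finset TT → G := fun u => if h : ∃ x, C.PotRel o φ u x then h.choose else 1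
  have hf : ∀ u ∈ C.K o, ∀ x, C.PotRel o φ u x → f u = x := by
    intro u hu x hx
    have h : ∃ x, C.PotRel o φ u x := ⟨x, hx⟩
    have e : f u = h.choose := dif_pos h
    rw [e]
    exact PotRel.unique ho hφ hu h.choose_spec hx
  refine ⟨f, ?_, ?_⟩
  · exact hf o (K_base o) 1 ⟨o, K_base o, 1, 1, Asc.refl o, Asc.refl o, by group⟩
  · intro v hv w hvw
    have hw : w ∈ C.K o := K_exp hv hvw
    obtain ⟨z, hz, a, b, ha, hb⟩ := PotRel.exists ho φ hw
    have e1 : f w = a * b⁻¹ := hf w hw _ ⟨z, hz, a, b, ha, hb, rfl⟩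
    have e2 : f v = a * (φ v w * b)⁻¹ := hf v hv _ ⟨z, hz, a, φ v w * b, ha, Asc.step hvw hb, rfl⟩
    rw [e1, e2]
    group

end CutSys

end Claimed.Agent.R152.B
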